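import Vale.Agent.P092.H793.Re.Blocks

/-!
P092, project RE, block [RE-D] (helper155), part 1: conjugation of a self-adjoint realisation by an
orthogonal matrix.
-/

set_option linter.all false

open Matrix Filter Topology

namespace Vale.Agent.P092.H155.Re

open Vale.Agent.P092.H793.Re

variable {n : ℕ} {G : Type} [Group G] [TopologicalSpace G]

/-- `g ↦ Kᵀ g K` on `SL_n(ℝ)`, `K` orthogonal. -/
def cj (K : Mat n) (hK : Kᵀ * K = 1) : SLn n →* SLn n where
  toFun g := ⟨Kᵀ * g.1 * K, by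
    have h2 : Kᵀ.det * K.det = 1 := by rw [← det_mul, hK, det_one]
    rw [det_mul, det_mul, g.2, mul_one, h2]⟩
  map_one' := by
    apply Subtype.ext
    show Kᵀ * (1 : Mat n) * K = 1
    rw [Matrix.mul_one, hK]
  map_mul' a b := by
    apply Subtype.ext
    have hK' : K * Kᵀ = 1 := mul_eq_one_comm.mp hK
    show Kᵀ * (a.1 * b.1) * K = (Kᵀ * a.1 * K) * (Kᵀ * b.1 * K)
    calc Kᵀ * (a.1 * b.1) * K = Kᵀ * a.1 * (1 : Mat n) * b.1 * K := by
          simp only [Matrix.mul_one, Matrix.mul_assoc]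
      _ = Kᵀ * a.1 * (K * Kᵀ) * b.1 * K := by rw [hK']
      _ = _ := by simp only [Matrix.mul_assoc]

theorem cj_val (K : Mat n) (hK : Kᵀ * K = 1) (g : SLn n) : (cj K hK g).1 = Kᵀ * g.1 * K := rfl

theorem tt (K : Mat n) (hK : Kᵀ * K = 1) : Kᵀᵀ * Kᵀ = 1 := by
  rw [transpose_transpose]; exact mul_eq_one_comm.mp hK

theorem cj_cj (K : Mat n) (hK : Kᵀ * K = 1) (g : SLn n) : cj K hK (cj Kᵀ (tt K hK) g) = g := by
  apply Subtype.ext
  rw [cj_val, cj_val, transpose_transpose]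
  calc Kᵀ * (K * g.1 * Kᵀ) * K = (Kᵀ * K) * g.1 * (Kᵀ * K) := by simp only [Matrix.mul_assoc]
    _ = g.1 := by rw [hK, Matrix.one_mul, Matrix.mul_one]

theorem cj_cj' (K : Mat n) (hK : Kᵀ * K = 1) (g : SLn n) : cj Kᵀ (tt K hK) (cj K hK g) = g := by
  have hK' : K * Kᵀ = 1 := mul_eq_one_comm.mp hK
  apply Subtype.ext
  rw [cj_val, cj_val, transpose_transpose]
  calc K * (Kᵀ * g.1 * K) * Kᵀ = (K * Kᵀ) * g.1 * (K * Kᵀ) := by simp only [Matrix.mul_assoc]
    _ = g.1 := by rw [hK', Matrix.one_mul, Matrix.mul_one]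

theorem cj_continuous (K : Mat n) (hK : Kᵀ * K = 1) : Continuous (cj K hK) := by
  refine Continuous.subtype_mk ?_ _
  exact (continuous_const.matrix_mul continuous_subtype_val).matrix_mul continuous_const

/-- the conjugation as a homeomorphism -/
def cjH (K : Mat n) (hK : Kᵀ * K = 1) : SLn n ≃ₜ SLn n where
  toFun := cj K hK
  invFun := cj Kᵀ (tt K hK)
  left_inv := cj_cj' K hK
  right_inv := cj_cj K hK
  continuous_toFun := cj_continuous K hK
  continuous_invFun := cj_continuous Kᵀ (tt K hK)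

/-- the conjugated realisation -/
def conj (K : Mat n) (hK : Kᵀ * K = 1) (ρ : G →* SLn n) : G →* SLn n := (cj K hK).comp ρ

theorem conj_val (K : Mat n) (hK : Kᵀ * K = 1) (ρ : G →* SLn n) (g : G) :
    (conj K hK ρ g).1 = Kᵀ * (ρ g).1 * K := rfl

theorem conj_apply (K : Mat n) (hK : Kᵀ * K = 1) (ρ : G →* SLn n) (g : G) :
    conj K hK ρ g = cj K hK (ρ g) := rfl

theorem posDef_conj {A K : Mat n} (hA : A.PosDef) (hK : Kᵀ * K = 1) : (K * A * Kᵀ).PosDef := by
  have h := hA.mul_mul_conjTranspose_same (B := K) ?_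
  · rwa [conjTranspose_eq_transpose_of_trivial] at h
  · intro x y hxy
    have h1 : (x ᵥ* K) ᵥ* Kᵀ = (y ᵥ* K) ᵥ* Kᵀ := by
      have h2 : (fun v => v ᵥ* K) x = (fun v => v ᵥ* K) y := hxy
      simp only at h2
      rw [h2]
    have hK' : K * Kᵀ = 1 := mul_eq_one_comm.mp hK
    rwa [vecMul_vecMul, vecMul_vecMul, hK', vecMul_one, vecMul_one] at h1

/-- **RS is stable under orthogonal conjugation** -/
theorem rs_conj {ρ : G →* SLn n} (hρ : RS ρ) (K : Mat n) (hK : Kᵀ * K = 1) : RS (conj K hK ρ) where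
  emb := (cjH K hK).isClosedEmbedding.comp hρ.emb
  conn := hρ.conn
  adj g := by
    obtain ⟨g', h⟩ := hρ.adj g
    refine ⟨g', ?_⟩
    rw [conj_val, conj_val, h, transpose_mul, transpose_mul, transpose_transpose,
      Matrix.mul_assoc]
  sqrt h hh hg := by
    obtain ⟨g, hg⟩ := hg
    have e1 : ρ g = cj Kᵀ (tt K hK) h * cj Kᵀ (tt K hK) h := by
      rw [← map_mul, ← hg, conj_apply, cj_cj']
    have hp : (cj Kᵀ (tt K hK) h).1.PosDef := by
      rw [cj_val, transpose_transpose]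
      exact posDef_conj hh hK
    obtain ⟨g', hg'⟩ := hρ.sqrt _ hp ⟨g, e1⟩
    exact ⟨g', by rw [conj_apply, hg', cj_cj]⟩
  nc := hρ.nc
  nab := hρ.nab
  simple := hρ.simple

theorem exp_conj (K : Mat n) (hK : Kᵀ * K = 1) (X : Mat n) :
    NormedSpace.exp (K * X * Kᵀ) = K * NormedSpace.exp X * Kᵀ :=
  Matrix.exp_units_conj (⟨K, Kᵀ, mul_eq_one_comm.mp hK, hK⟩ : (Mat n)ˣ) X

/-- **the Lie algebra of the conjugated realisation** -/
theorem lie_conj_iff {ρ : G →* SLn n} (K : Mat n) (hK : Kᵀ * K = 1) (X : Mat n) :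
    Lie (conj K hK ρ) X ↔ Lie ρ (K * X * Kᵀ) := by
  have hK' : K * Kᵀ = 1 := mul_eq_one_comm.mp hK
  refine forall_congr' fun t => exists_congr fun g => ?_
  have e1 : t • (K * X * Kᵀ) = K * (t • X) * Kᵀ := by
    rw [Matrix.mul_smul, Matrix.smul_mul]
  rw [e1, exp_conj K hK, conj_val]
  constructor
  · intro h
    rw [← h]
    calc (ρ g).1 = (K * Kᵀ) * (ρ g).1 * (K * Kᵀ) := by
          rw [hK', Matrix.one_mul, Matrix.mul_one]
      _ = _ := by simp only [Matrix.mul_assoc]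
  · intro h
    rw [h]
    calc Kᵀ * (K * NormedSpace.exp (t • X) * Kᵀ) * K
        = (Kᵀ * K) * NormedSpace.exp (t • X) * (Kᵀ * K) := by simp only [Matrix.mul_assoc]
      _ = _ := by rw [hK, Matrix.one_mul, Matrix.mul_one]

/-! ### elementary closure properties of the Lie algebra -/

theorem lie_zero (ρ : G →* SLn n) : Lie ρ 0 := fun t => ⟨1, by
  rw [smul_zero, NormedSpace.exp_zero, map_one]; rfl⟩

theorem lie_smul {ρ : G →* SLn n} {X : Mat n} (h : Lie ρ X) (c : ℝ) : Lie ρ (c • X) := fun t => by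
  obtain ⟨g, hg⟩ := h (t * c)
  exact ⟨g, by rw [hg, smul_smul]⟩

/-- commuting elements -/
theorem lie_add_comm {ρ : G →* SLn n} {X Y : Mat n} (hX : Lie ρ X) (hY : Lie ρ Y)
    (h : X * Y = Y * X) : Lie ρ (X + Y) := fun t => by
  obtain ⟨g, hg⟩ := hX t
  obtain ⟨g', hg'⟩ := hY t
  refine ⟨g * g', ?_⟩
  have hc : Commute (t • X) (t • Y) := (Commute.smul_left (show Commute X Y from h) t).smul_right t
  rw [map_mul, smul_add, Matrix.exp_add_of_commute _ _ hc, ← hg, ← hg']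
  rfl

end Vale.Agent.P092.H155.Re
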