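import Mathlib.Analysis.InnerProductSpace.JointEigenspace
import Mathlib.Analysis.Matrix.Hermitian
import Mathlib.Analysis.InnerProductSpace.PiL2

/-!
P092, project RE, block [RE-D] (helper155), part 2: simultaneous orthogonal diagonalisation of a
commuting space of symmetric matrices.
-/

set_option linter.all false

open Matrix Module

namespace Vale.Agent.P092.H155.Re

/-- a commuting space of symmetric matrices is diagonal in one orthonormal basis -/
theorem joint_diag {n : ℕ} (V : Submodule ℝ (Matrix (Fin n) (Fin n) ℝ)) (hs : ∀ X ∈ V, Xᵀ = X)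
    (hc : ∀ X ∈ V, ∀ Y ∈ V, X * Y = Y * X) :
    ∃ K : Matrix (Fin n) (Fin n) ℝ, Kᵀ * K = 1 ∧
      ∀ X ∈ V, ∃ x : Fin n → ℝ, X = K * diagonal x * Kᵀ := by
  classical
  let E := EuclideanSpace ℝ (Fin n)
  let T : V → E →ₗ[ℝ] E := fun X => Matrix.toEuclideanLin X.1
  have hTv : ∀ (X : V) (v : E), T X v = WithLp.toLp 2 (X.1 *ᵥ v.ofLp) := fun X v => by
    rfl
  have hT : ∀ X, (T X).IsSymmetric := fun X => by
    have h1 : X.1.IsHermitian := by
      show X.1ᴴ = X.1
      rw [conjTranspose_eq_transpose_of_trivial]; exact hs _ X.2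
    exact Matrix.isSymmetric_toEuclideanLin_iff.mpr h1
  have hC : Pairwise (Function.onFun Commute T) := fun X Y _ => by
    show T X * T Y = T Y * T X
    refine LinearMap.ext fun v => ?_
    show T X (T Y v) = T Y (T X v)
    rw [hTv, hTv, hTv, hTv]
    simp only
    rw [mulVec_mulVec, mulVec_mulVec, hc _ X.2 _ Y.2]
  have hI := LinearMap.IsSymmetric.directSum_isInternal_of_pairwise_commute hT hC
  have hO := LinearMap.IsSymmetric.orthogonalFamily_iInf_eigenspaces hT
  set W : (V → ℝ) → Submodule ℝ E := fun α => ⨅ X, End.eigenspace (T X) (α X) with hW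
  have hfin : {α | W α ≠ ⊥}.Finite := WellFoundedGT.finite_ne_bot_of_iSupIndep hI.submodule_iSupIndep
  haveI : Fintype {α // W α ≠ ⊥} := hfin.fintype
  have hI' : DirectSum.IsInternal (fun α : {α // W α ≠ ⊥} => W α) :=
    DirectSum.isInternal_ne_bot_iff.mpr hI
  have hO' : OrthogonalFamily ℝ (fun α : {α // W α ≠ ⊥} => W α)
      fun α => (W α).subtypeₗᵢ := hO.comp Subtype.val_injective
  have hdim : finrank ℝ E = n := by simp [E]
  let b := hI'.subordinateOrthonormalBasis hdim hO'
  let ind := fun a => hI'.subordinateOrthonormalBasisIndex hdim a hO'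
  have hb : ∀ a (X : V), T X (b a) = (ind a).1 X • b a := fun a X => by
    have h1 : b a ∈ W (ind a).1 := hI'.subordinateOrthonormalBasis_subordinate hdim a hO'
    have h2 := (Submodule.mem_iInf _).mp h1 X
    exact End.mem_eigenspace_iff.mp h2
  have hK : ((of fun i j => (b j).ofLp i : Matrix (Fin n) (Fin n) ℝ))ᵀ *
      (of fun i j => (b j).ofLp i) = 1 := by
    ext a c
    rw [mul_apply, one_apply]
    have h1 := orthonormal_iff_ite.mp b.orthonormal a c
    rw [← h1, PiLp.inner_apply]
    refine Finset.sum_congr rfl fun i _ => ?_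
    simp [mul_comm]
  refine ⟨of fun i j => (b j).ofLp i, hK, fun X hX => ⟨fun a => (ind a).1 ⟨X, hX⟩, ?_⟩⟩
  have h1 : X * (of fun i j => (b j).ofLp i) =
      (of fun i j => (b j).ofLp i) * diagonal fun a => (ind a).1 ⟨X, hX⟩ := by
    ext i a
    rw [mul_diagonal]
    have h2 := hb a ⟨X, hX⟩
    rw [hTv] at h2
    have h3 := congrFun (congrArg WithLp.ofLp h2) i
    simp only [WithLp.ofLp_smul, Pi.smul_apply, smul_eq_mul] at h3
    simp only [mul_apply, of_apply]
    rw [mul_comm]
    exact h3
  rw [← h1, Matrix.mul_assoc, mul_eq_one_comm.mp hK, Matrix.mul_one]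

end Vale.Agent.P092.H155.Re
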